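import Mathlib

/-!
P092, Team P, Stage 2 (helper308), row [P2-SG]: totally isotropic subspaces of a symplectic space.
Coordinate free, any field. This file: dual families, extension to a maximal totally isotropic
family, Witt's theorem for totally isotropic families.
-/

set_option linter.all false

open Module

namespace Vale.Agent.P092.H308.SG

variable {k V : Type*} [Field k] [AddCommGroup V] [Module k V] [FiniteDimensional k V]
  {B : V →ₗ[k] V →ₗ[k] k}

/-- alternating and nondegenerate -/
structure Sp (B : V →ₗ[k] V →ₗ[k] k) : Prop where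
  alt : ∀ x, B x x = 0
  nd : ∀ x, (∀ y, B x y = 0) → x = 0

theorem Sp.skew (h : Sp B) (x y : V) : B x y = - B y x := by
  have := h.alt (x + y)
  simp only [map_add, LinearMap.add_apply, h.alt, zero_add, add_zero] at this
  exact eq_neg_of_add_eq_zero_right this

theorem Sp.symm0 (h : Sp B) {x y : V} (hxy : B x y = 0) : B y x = 0 := by
  rw [h.skew, hxy, neg_zero]

/-- totally isotropic subspace -/
def Iso (B : V →ₗ[k] V →ₗ[k] k) (X : Submodule k V) : Prop := ∀ x ∈ X, ∀ y ∈ X, B x y = 0

/-- totally isotropic family -/
def IsoF (B : V →ₗ[k] V →ₗ[k] k) {ι : Type*} (u : ι → V) : Prop := ∀ i j, B (u i) (u j) = 0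

/-- the functionals `B (u i)` take arbitrary values -/
theorem Sp.surj (h : Sp B) {ι : Type*} [Fintype ι] {u : ι → V} (hu : LinearIndependent k u)
    (c : ι → k) : ∃ v, ∀ i, B (u i) v = c i := by
  classical
  have hker : LinearMap.ker B = ⊥ := by
    rw [LinearMap.ker_eq_bot']
    intro x hx
    exact h.nd x fun y => by rw [hx]; rfl
  have h1 : LinearIndependent k (fun i => B (u i)) := hu.map' B hker
  -- the map `V → ι → k` is onto
  let T : V →ₗ[k] (ι → k) := LinearMap.pi fun i => B (u i)
  have hT : Function.Surjective T := by
    rw [← LinearMap.range_eq_top]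
    by_contra hne
    obtain ⟨f, hf0, hf⟩ := Submodule.exists_le_ker_of_lt_top _ (lt_top_iff_ne_top.2 hne)
    apply hf0
    have h2 : ∑ i, f (Pi.single i 1) • B (u i) = 0 := by
      ext v
      have h3 : f (T v) = 0 := by
        have : T v ∈ LinearMap.ker f := hf (LinearMap.mem_range_self T v)
        exact this
      have h4 : T v = ∑ i, (B (u i) v) • (Pi.single i (1 : k) : ι → k) := by
        ext j
        simp [T, Finset.sum_apply, Pi.single_apply]
      rw [h4, map_sum] at h3
      simp only [map_smul, smul_eq_mul] at h3
      simp only [LinearMap.sum_apply, LinearMap.smul_apply, smul_eq_mul, LinearMap.zero_apply]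
      rw [← h3]
      exact Finset.sum_congr rfl fun i _ => mul_comm _ _
    rw [Fintype.linearIndependent_iff] at h1
    have h5 := h1 _ h2
    ext i
    simpa using h5 i
  obtain ⟨v, hv⟩ := hT c
  exact ⟨v, fun i => congrFun hv i⟩

/-- dual family -/
theorem Sp.dual (h : Sp B) {m : ℕ} {u : Fin m → V} (hu : LinearIndependent k u) (hi : IsoF B u) :
    ∃ w : Fin m → V, IsoF B w ∧ ∀ i j, B (u i) (w j) = if i = j then 1 else 0 := by
  classical
  choose w' hw' using fun j : Fin m => h.surj hu (fun i => if i = j then (1 : k) else 0)
  refine ⟨fun j => w' j + ∑ i ∈ Finset.univ.filter (· < j), (B (w' i) (w' j)) • u i, ?_, ?_⟩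
  · have key : ∀ i j : Fin m, i < j →
        B (w' i + ∑ l ∈ Finset.univ.filter (· < i), (B (w' l) (w' i)) • u l)
          (w' j + ∑ l ∈ Finset.univ.filter (· < j), (B (w' l) (w' j)) • u l) = 0 := by
      intro i j hij
      simp only [map_add, LinearMap.add_apply, map_sum, LinearMap.sum_apply, map_smul,
        LinearMap.smul_apply, smul_eq_mul]
      have e1 : ∑ x ∈ Finset.univ.filter (· < i), B (w' x) (w' i) * B (u x) (w' j) = 0 := by
        refine Finset.sum_eq_zero fun x hx => ?_
        have hx' : x < i := (Finset.mem_filter.1 hx).2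
        rw [hw' j x, if_neg (fun he => by rw [he] at hx'; exact absurd hx' (not_lt.2 hij.le)),
          mul_zero]
      have e2 : ∑ x ∈ Finset.univ.filter (· < j), B (w' x) (w' j) * B (w' i) (u x)
          = - B (w' i) (w' j) := by
        have : ∀ x ∈ Finset.univ.filter (· < j), B (w' x) (w' j) * B (w' i) (u x)
            = if x = i then - B (w' i) (w' j) else 0 := by
          intro x hx
          rw [h.skew (w' i) (u x), hw' i x]
          by_cases hxi : x = i
          · subst hxi; simp
          · simp [hxi]
        rw [Finset.sum_congr rfl this, Finset.sum_ite_eq' _ i]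
        simp [hij]
      have e3 : ∑ x ∈ Finset.univ.filter (· < j), B (w' x) (w' j) *
          ∑ x_1 ∈ Finset.univ.filter (· < i), B (w' x_1) (w' i) * B (u x_1) (u x) = 0 := by
        refine Finset.sum_eq_zero fun x hx => ?_
        rw [Finset.sum_eq_zero fun y hy => by rw [hi y x, mul_zero], mul_zero]
      simp only [mul_add, Finset.sum_add_distrib]
      rw [e1, e2, e3]
      ring
    intro i j
    rcases lt_trichotomy i j with hij | rfl | hij
    · exact key i j hij
    · exact h.alt _
    · exact h.symm0 (key j i hij)
  · intro i j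
    simp only [map_add, map_sum, map_smul, smul_eq_mul]
    rw [hw' j i, Finset.sum_eq_zero fun x hx => by rw [hi i x, mul_zero], add_zero]

/-- orthogonal of a family has the right dimension: one more orthogonal vector -/
theorem Sp.ext_one (h : Sp B) {m : ℕ} {u : Fin m → V} (hu : LinearIndependent k u)
    (hi : IsoF B u) (hm : 2 * m < finrank k V) :
    ∃ v, (∀ i, B (u i) v = 0) ∧ v ∉ Submodule.span k (Set.range u) := by
  let T : V →ₗ[k] (Fin m → k) := LinearMap.pi fun i => B (u i)
  by_contra hcon
  push Not at hcon
  have h1 : LinearMap.ker T ≤ Submodule.span k (Set.range u) := by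
    intro v hv
    refine hcon v fun i => ?_
    have : T v = 0 := hv
    exact congrFun this i
  have h2 := LinearMap.finrank_range_add_finrank_ker T
  have h3 : finrank k (LinearMap.range T) ≤ m := by
    simpa using Submodule.finrank_le (LinearMap.range T)
  have h4 : finrank k (LinearMap.ker T) ≤ m := by
    have := Submodule.finrank_mono h1
    rw [finrank_span_eq_card hu, Fintype.card_fin] at this
    exact this
  omega

theorem Sp.ext (h : Sp B) {r : ℕ} (hr : finrank k V = 2 * r) :
    ∀ (n m : ℕ) (hmn : m + n = r) {u : Fin m → V}, LinearIndependent k u → IsoF B u →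
      ∃ u' : Fin r → V, LinearIndependent k u' ∧ IsoF B u' ∧
        ∀ i : Fin m, u' (Fin.castLE (by omega) i) = u i := by
  intro n
  induction n with
  | zero =>
    intro m hmn u hu hi
    have : m = r := by omega
    subst this
    exact ⟨u, hu, hi, fun i => by simp⟩
  | succ n ih =>
    intro m hmn u hu hi
    obtain ⟨v, hv, hvs⟩ := h.ext_one hu hi (by omega)
    have h1 : LinearIndependent k (Fin.snoc u v : Fin (m + 1) → V) :=
      linearIndependent_finSnoc.2 ⟨hu, hvs⟩
    have h2 : IsoF B (Fin.snoc u v : Fin (m + 1) → V) := by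
      intro i j
      refine Fin.lastCases ?_ (fun i => ?_) i <;> refine Fin.lastCases ?_ (fun j => ?_) j
      · simp [h.alt]
      · simp only [Fin.snoc_last, Fin.snoc_castSucc]
        exact h.symm0 (hv j)
      · simp only [Fin.snoc_last, Fin.snoc_castSucc]
        exact hv i
      · simp only [Fin.snoc_castSucc]
        exact hi i j
    obtain ⟨u', hu', hi', he⟩ := ih (m + 1) (by omega) h1 h2
    refine ⟨u', hu', hi', fun i => ?_⟩
    have := he (Fin.castSucc i)
    simp only [Fin.snoc_castSucc] at this
    rw [← this]
    rfl

end Vale.Agent.P092.H308.SG
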