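import Vale.Agent.P092.H308.SG1

/-!
P092, Team P, Stage 2 (helper308), row [P2-SG]: Witt's theorem for totally isotropic families of a
symplectic space.
-/

set_option linter.all false

open Module

namespace Vale.Agent.P092.H308.SG

variable {k V : Type*} [Field k] [AddCommGroup V] [Module k V] [FiniteDimensional k V]
  {B : V →ₗ[k] V →ₗ[k] k}

theorem Sp.indep (h : Sp B) {m : ℕ} {u w : Fin m → V} (hu : IsoF B u) (hw : IsoF B w)
    (huw : ∀ i j, B (u i) (w j) = if i = j then 1 else 0) :
    LinearIndependent k (Sum.elim u w) := by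
  classical
  rw [Fintype.linearIndependent_iff]
  intro c hc
  rw [Fintype.sum_sum_type] at hc
  simp only [Sum.elim_inl, Sum.elim_inr] at hc
  rintro (j | j)
  · have h1 := congrArg (fun x => B x (w j)) hc
    simp only [map_add, LinearMap.add_apply, map_sum, LinearMap.sum_apply, map_smul,
      LinearMap.smul_apply, smul_eq_mul, map_zero, LinearMap.zero_apply] at h1
    rw [Finset.sum_eq_zero (s := Finset.univ) (f := fun i => c (Sum.inr i) * B (w i) (w j))
      (fun i _ => by rw [hw i j, mul_zero]), add_zero] at h1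
    simpa [huw] using h1
  · have h1 := congrArg (fun x => B (u j) x) hc
    simp only [map_add, map_sum, map_smul, smul_eq_mul, map_zero] at h1
    rw [Finset.sum_eq_zero (s := Finset.univ) (f := fun i => c (Sum.inl i) * B (u j) (u i))
      (fun i _ => by rw [hu j i, mul_zero]), zero_add] at h1
    simpa [huw] using h1

theorem Sp.le (h : Sp B) {r m : ℕ} (hr : finrank k V = 2 * r) {u : Fin m → V}
    (hu : LinearIndependent k u) (hi : IsoF B u) : m ≤ r := by
  obtain ⟨w, hw, huw⟩ := h.dual hu hi
  have := (h.indep hi hw huw).fintype_card_le_finrank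
  simp only [Fintype.card_sum, Fintype.card_fin] at this
  omega

/-- symplectic bases are conjugate -/
theorem Sp.conj (h : Sp B) {r : ℕ} (hr : finrank k V = 2 * r) {u w u' w' : Fin r → V}
    (hu : IsoF B u) (hw : IsoF B w) (huw : ∀ i j, B (u i) (w j) = if i = j then 1 else 0)
    (hu' : IsoF B u') (hw' : IsoF B w') (huw' : ∀ i j, B (u' i) (w' j) = if i = j then 1 else 0) :
    ∃ g : V ≃ₗ[k] V, (∀ x y, B (g x) (g y) = B x y) ∧ (∀ i, g (u i) = u' i) ∧
      ∀ i, g (w i) = w' i := by
  classical
  have hc : Fintype.card (Fin r ⊕ Fin r) = finrank k V := by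
    simp only [Fintype.card_sum, Fintype.card_fin]; omega
  rcases Nat.eq_zero_or_pos r with hr0 | hr0
  · subst hr0
    exact ⟨LinearEquiv.refl k V, fun _ _ => rfl, fun i => i.elim0, fun i => i.elim0⟩
  haveI : Nonempty (Fin r ⊕ Fin r) := ⟨Sum.inl ⟨0, hr0⟩⟩
  let b := basisOfLinearIndependentOfCardEqFinrank (h.indep hu hw huw) hc
  let b' := basisOfLinearIndependentOfCardEqFinrank (h.indep hu' hw' huw') hc
  have hb : ∀ i, b i = Sum.elim u w i := fun i => by
    simp [b]
  have hb' : ∀ i, b' i = Sum.elim u' w' i := fun i => by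
    simp [b']
  let g : V ≃ₗ[k] V := b.equiv b' (Equiv.refl _)
  have hg : ∀ i, g (b i) = b' i := fun i => by simp [g]
  refine ⟨g, ?_, ?_, ?_⟩
  · have : LinearMap.compl₁₂ B (g : V →ₗ[k] V) (g : V →ₗ[k] V) = B := by
      refine LinearMap.ext_basis b b fun i j => ?_
      simp only [LinearMap.compl₁₂_apply, LinearEquiv.coe_coe, hg]
      rw [hb, hb, hb', hb']
      rcases i with i | i <;> rcases j with j | j
      · simp only [Sum.elim_inl]; rw [hu i j, hu' i j]
      · simp only [Sum.elim_inl, Sum.elim_inr]; rw [huw i j, huw' i j]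
      · simp only [Sum.elim_inl, Sum.elim_inr]
        rw [h.skew (w i), h.skew (w' i), huw j i, huw' j i]
      · simp only [Sum.elim_inr]; rw [hw i j, hw' i j]
    intro x y
    have h1 := congrArg (fun f => f x y) this
    simpa using h1
  · intro i
    have := hg (Sum.inl i)
    rwa [hb, hb'] at this
  · intro i
    have := hg (Sum.inr i)
    rwa [hb, hb'] at this

/-- **Witt's theorem** for totally isotropic families -/
theorem Sp.witt (h : Sp B) {r m : ℕ} (hr : finrank k V = 2 * r) {u u' : Fin m → V}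
    (hu : LinearIndependent k u) (hi : IsoF B u) (hu' : LinearIndependent k u')
    (hi' : IsoF B u') :
    ∃ g : V ≃ₗ[k] V, (∀ x y, B (g x) (g y) = B x y) ∧ ∀ i, g (u i) = u' i := by
  have hm := h.le hr hu hi
  obtain ⟨U, hU, hUi, hUe⟩ := h.ext hr (r - m) m (by omega) hu hi
  obtain ⟨U', hU', hUi', hUe'⟩ := h.ext hr (r - m) m (by omega) hu' hi'
  obtain ⟨W, hW, hUW⟩ := h.dual hU hUi
  obtain ⟨W', hW', hUW'⟩ := h.dual hU' hUi'
  obtain ⟨g, hg, hgu, -⟩ := h.conj hr hUi hW hUW hUi' hW' hUW'
  refine ⟨g, hg, fun i => ?_⟩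
  rw [← hUe i, hgu, hUe' i]

/-- a family of a totally isotropic subspace is totally isotropic -/
theorem isoF_of {X : Submodule k V} (hX : Iso B X) {ι : Type*} {u : ι → V} (hu : ∀ i, u i ∈ X) :
    IsoF B u := fun i j => hX _ (hu i) _ (hu j)

theorem iso_span {ι : Type*} {u : ι → V} (hi : IsoF B u) : Iso B (Submodule.span k (Set.range u)) := by
  intro x hx y hy
  induction hx using Submodule.span_induction with
  | mem x hx =>
    obtain ⟨i, rfl⟩ := hx
    induction hy using Submodule.span_induction with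
    | mem y hy => obtain ⟨j, rfl⟩ := hy; exact hi i j
    | zero => simp
    | add y z _ _ hy hz => rw [map_add, hy, hz, add_zero]
    | smul a y _ hy => rw [map_smul, hy, smul_zero]
  | zero => simp
  | add x z _ _ hx hz => rw [map_add, LinearMap.add_apply, hx, hz, add_zero]
  | smul a x _ hx => rw [map_smul, LinearMap.smul_apply, hx, smul_zero]

/-- `X + k y` is totally isotropic if `X` is and `y` is orthogonal to `X` -/
theorem Sp.iso_sup (h : Sp B) {X : Submodule k V} (hX : Iso B X) {y : V}
    (hy : ∀ x ∈ X, B x y = 0) : Iso B (X ⊔ Submodule.span k {y}) := by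
  intro a ha b hb
  obtain ⟨x, hx, s, hs, rfl⟩ := Submodule.mem_sup.1 ha
  obtain ⟨x', hx', s', hs', rfl⟩ := Submodule.mem_sup.1 hb
  obtain ⟨c, rfl⟩ := Submodule.mem_span_singleton.1 hs
  obtain ⟨c', rfl⟩ := Submodule.mem_span_singleton.1 hs'
  simp only [map_add, LinearMap.add_apply, map_smul, LinearMap.smul_apply, smul_eq_mul,
    hX x hx x' hx', hy x hx, h.symm0 (hy x' hx'), h.alt, mul_zero, add_zero]

theorem finrank_sup_span {X : Submodule k V} {y : V} (hy : y ∉ X) :
    finrank k (X ⊔ Submodule.span k {y} : Submodule k V) = finrank k X + 1 := by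
  have h1 : X ⊓ Submodule.span k {y} = ⊥ := by
    rw [eq_bot_iff]
    rintro z ⟨hz, hz'⟩
    obtain ⟨c, rfl⟩ := Submodule.mem_span_singleton.1 hz'
    by_cases hc : c = 0
    · simp [hc]
    · exact absurd ((Submodule.smul_mem_iff X hc).1 hz) hy
  have h2 := Submodule.finrank_sup_add_finrank_inf_eq X (Submodule.span k {y})
  have hy0 : y ≠ 0 := fun h0 => hy (h0 ▸ X.zero_mem)
  rw [h1, finrank_bot, finrank_span_singleton hy0, add_zero] at h2
  exact h2

/-- `y^⊥ ∩ X` has codimension at most one in `X` -/
theorem finrank_perp (X : Submodule k V) (f : V →ₗ[k] k) :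
    finrank k X ≤ finrank k (X ⊓ LinearMap.ker f : Submodule k V) + 1 := by
  have h1 := LinearMap.finrank_range_add_finrank_ker (f.domRestrict X)
  have h2 : finrank k (LinearMap.range (f.domRestrict X)) ≤ 1 := by
    simpa using Submodule.finrank_le (LinearMap.range (f.domRestrict X))
  have h3 : finrank k (LinearMap.ker (f.domRestrict X)) =
      finrank k (X ⊓ LinearMap.ker f : Submodule k V) := by
    have h4 : (LinearMap.ker (f.domRestrict X)).map X.subtype = X ⊓ LinearMap.ker f := by
      ext x
      simp only [Submodule.mem_map, LinearMap.mem_ker, Submodule.subtype_apply, Subtype.exists,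
        Submodule.mem_inf, LinearMap.domRestrict_apply]
      constructor
      · rintro ⟨a, ha, h, rfl⟩; exact ⟨ha, h⟩
      · rintro ⟨ha, h⟩; exact ⟨x, ha, h, rfl⟩
    rw [← h4]
    exact (LinearEquiv.finrank_eq (Submodule.equivMapOfInjective X.subtype X.subtype_injective
      (LinearMap.ker (f.domRestrict X))))
  omega

end Vale.Agent.P092.H308.SG
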