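import Vale.Agent.P092.H308.SG2

/-!
P092, Team P, Stage 2 (helper308), row [P2-SG]: the totally isotropic subspaces of a symplectic
space: connectedness and transitivity.
-/

set_option linter.all false

open Module

namespace Vale.Agent.P092.H308.SG

variable {k V : Type*} [Field k] [AddCommGroup V] [Module k V] [FiniteDimensional k V]
  {B : V →ₗ[k] V →ₗ[k] k}

theorem exp_basis {ι : Type*} [Fintype ι] {X : Submodule k V} (b : Basis ι k X) {x : V}
    (hx : x ∈ X) : x = ∑ i, b.repr ⟨x, hx⟩ i • (b i : V) := by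
  have h2 := congrArg Subtype.val (b.sum_repr ⟨x, hx⟩)
  rw [AddSubmonoidClass.coe_finset_sum] at h2
  exact h2.symm

theorem between : ∀ (t : ℕ) {D E : Submodule k V} {n : ℕ}, D ≤ E → finrank k D + t = n →
    n ≤ finrank k E → ∃ X : Submodule k V, D ≤ X ∧ X ≤ E ∧ finrank k X = n := by
  intro t
  induction t with
  | zero => intro D E n hDE ht hn; exact ⟨D, le_rfl, hDE, by omega⟩
  | succ t ih =>
    intro D E n hDE ht hn
    have hne : D ≠ E := fun he => by subst he; omega
    obtain ⟨y, hyE, hyD⟩ := SetLike.exists_of_lt (lt_of_le_of_ne hDE hne)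
    have h1 := finrank_sup_span hyD
    obtain ⟨X, hX1, hX2, hX3⟩ := ih (D := D ⊔ Submodule.span k {y}) (E := E) (n := n)
      (sup_le hDE (by rwa [Submodule.span_singleton_le_iff_mem])) (by omega) hn
    exact ⟨X, le_sup_left.trans hX1, hX2, hX3⟩

theorem Iso.mono {X Y : Submodule k V} (hX : Iso B X) (hYX : Y ≤ X) : Iso B Y :=
  fun x hx y hy => hX x (hYX hx) y (hYX hy)

/-- totally isotropic of dimension `m` -/
def IsD (B : V →ₗ[k] V →ₗ[k] k) (m : ℕ) (X : Submodule k V) : Prop := Iso B X ∧ finrank k X = m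

/-- one step of the first kind: a common subspace of codimension one -/
def StepD (B : V →ₗ[k] V →ₗ[k] k) (m : ℕ) (X Y : Submodule k V) : Prop :=
  IsD B m X ∧ IsD B m Y ∧ ∃ Z : Submodule k V, Z ≤ X ∧ Z ≤ Y ∧ finrank k Z + 1 = m

theorem Sp.con_aux (h : Sp B) {m : ℕ} (hm : 1 ≤ m) : ∀ (t : ℕ) (X Y : Submodule k V),
    IsD B m X → IsD B m Y → m ≤ finrank k (X ⊓ Y : Submodule k V) + t →
    Relation.ReflTransGen (StepD B m) X Y := by
  intro t
  induction t with
  | zero =>
    intro X Y hX hY ht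
    have h0 : finrank k (X ⊓ Y : Submodule k V) ≤ finrank k X :=
      Submodule.finrank_mono inf_le_left
    have h1 : X ⊓ Y = X :=
      Submodule.eq_of_le_of_finrank_eq inf_le_left (by rw [hX.2] at h0 ⊢; omega)
    have h2 : X = Y := Submodule.eq_of_le_of_finrank_eq (inf_eq_left.1 h1)
      (by rw [hX.2, hY.2])
    rw [h2]
  | succ t ih =>
    intro X Y hX hY ht
    by_cases hne : Y ≤ X
    · rw [Submodule.eq_of_le_of_finrank_eq hne (by rw [hX.2, hY.2])]
    obtain ⟨y, hyY, hyX⟩ := SetLike.not_le_iff_exists.1 hne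
    -- hyperplane of `X` orthogonal to `y` containing the intersection
    have hD : X ⊓ Y ≤ X ⊓ LinearMap.ker (B y) := by
      intro x hx
      exact ⟨hx.1, hY.1 y hyY x hx.2⟩
    have hE := finrank_perp X (B y)
    rw [hX.2] at hE
    have hlt : finrank k (X ⊓ Y : Submodule k V) < m := by
      by_contra hge
      have h0 : X ⊓ Y = Y := Submodule.eq_of_le_of_finrank_le inf_le_right
        (by rw [hY.2]; omega)
      exact hne (inf_eq_right.1 h0)
    obtain ⟨Z, hZ1, hZ2, hZ3⟩ := between (m - 1 - finrank k (X ⊓ Y : Submodule k V))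
      (n := m - 1) hD (by omega) (by omega)
    have hZX : Z ≤ X := hZ2.trans inf_le_left
    have hyZ : y ∉ Z := fun hy => hyX (hZX hy)
    have hiso : IsD B m (Z ⊔ Submodule.span k {y}) :=
      ⟨h.iso_sup (hX.1.mono hZX) fun x hx => h.symm0 (hZ2 hx).2, by
        rw [finrank_sup_span hyZ]; omega⟩
    have hstep : StepD B m X (Z ⊔ Submodule.span k {y}) :=
      ⟨hX, hiso, Z, hZX, le_sup_left, by omega⟩
    have hle : (X ⊓ Y) ⊔ Submodule.span k {y} ≤ (Z ⊔ Submodule.span k {y}) ⊓ Y :=
      sup_le (le_inf (hZ1.trans le_sup_left) inf_le_right)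
        (by rw [Submodule.span_singleton_le_iff_mem]
            exact ⟨Submodule.mem_sup_right (Submodule.mem_span_singleton_self y), hyY⟩)
    have h3 : finrank k (X ⊓ Y : Submodule k V) + 1 ≤
        finrank k ((Z ⊔ Submodule.span k {y}) ⊓ Y : Submodule k V) := by
      rw [← finrank_sup_span (X := X ⊓ Y) (y := y) fun hy => hyX hy.1]
      exact Submodule.finrank_mono hle
    exact Relation.ReflTransGen.head hstep (ih _ Y hiso hY (by omega))

/-- the totally isotropic subspaces of dimension `m ≥ 1` are connected by steps with a common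
subspace of dimension `m - 1` -/
theorem Sp.con (h : Sp B) {m : ℕ} (hm : 1 ≤ m) {X Y : Submodule k V} (hX : IsD B m X)
    (hY : IsD B m Y) : Relation.ReflTransGen (StepD B m) X Y :=
  h.con_aux hm m X Y hX hY (by omega)

/-- one step of the second kind: inside a common totally isotropic subspace of dimension one more -/
def StepU (B : V →ₗ[k] V →ₗ[k] k) (m : ℕ) (X Y : Submodule k V) : Prop :=
  IsD B m X ∧ IsD B m Y ∧ ∃ Z : Submodule k V, X ≤ Z ∧ Y ≤ Z ∧ IsD B (m + 1) Z

/-- dimension of the orthogonal of a subspace -/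
theorem Sp.perp (h : Sp B) (X : Submodule k V) :
    ∃ P : Submodule k V, (∀ y ∈ P, ∀ x ∈ X, B x y = 0) ∧ finrank k V ≤ finrank k P + finrank k X := by
  classical
  obtain ⟨b⟩ : Nonempty (Basis (Fin (finrank k X)) k X) := ⟨finBasis k X⟩
  let T : V →ₗ[k] (Fin (finrank k X) → k) := LinearMap.pi fun i => B (b i : V)
  refine ⟨LinearMap.ker T, ?_, ?_⟩
  · intro y hy x hx
    have h1 : ∀ i, B (b i : V) y = 0 := fun i => congrFun (show T y = 0 from hy) i
    have h3 := exp_basis b hx
    rw [h3]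
    simp [h1]
  · have h2 := LinearMap.finrank_range_add_finrank_ker T
    have h3 : finrank k (LinearMap.range T) ≤ finrank k X := by
      simpa using Submodule.finrank_le (LinearMap.range T)
    omega

theorem Sp.stepU_of (h : Sp B) {r m : ℕ} (hr : finrank k V = 2 * r) (hmr : m + 1 ≤ r)
    {X Y : Submodule k V} (hs : StepD B m X Y) :
    Relation.ReflTransGen (StepU B m) X Y := by
  obtain ⟨hX, hY, Z, hZX, hZY, hZ⟩ := hs
  -- a step for orthogonal spaces
  have ortho : ∀ X Y : Submodule k V, IsD B m X → IsD B m Y → Z ≤ X → Z ≤ Y →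
      (∀ x ∈ X, ∀ y ∈ Y, B x y = 0) → Relation.ReflTransGen (StepU B m) X Y := by
    intro X Y hX hY hZX hZY hXY
    by_cases hne : Y ≤ X
    · rw [Submodule.eq_of_le_of_finrank_eq hne (by rw [hX.2, hY.2])]
    obtain ⟨y, hyY, hyX⟩ := SetLike.not_le_iff_exists.1 hne
    refine Relation.ReflTransGen.single ⟨hX, hY, X ⊔ Submodule.span k {y}, le_sup_left, ?_,
      h.iso_sup hX.1 fun x hx => hXY x hx y hyY, by rw [finrank_sup_span hyX, hX.2]⟩
    have hyZ : y ∉ Z := fun hy => hyX (hZX hy)
    have hYe : Z ⊔ Submodule.span k {y} = Y :=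
      Submodule.eq_of_le_of_finrank_eq (sup_le hZY (by rwa [Submodule.span_singleton_le_iff_mem]))
        (by rw [finrank_sup_span hyZ, hZ, hY.2])
    rw [← hYe]
    exact sup_le_sup_right hZX _
  -- a third space orthogonal to both
  obtain ⟨P, hP, hPd⟩ := h.perp (X ⊔ Y)
  have h1 := Submodule.finrank_sup_add_finrank_inf_eq X Y
  have h2 : finrank k Z ≤ finrank k (X ⊓ Y : Submodule k V) :=
    Submodule.finrank_mono (le_inf hZX hZY)
  rw [hX.2, hY.2] at h1
  have hPZ : ¬ P ≤ Z := fun hle => by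
    have := Submodule.finrank_mono hle
    omega
  obtain ⟨c, hcP, hcZ⟩ := SetLike.not_le_iff_exists.1 hPZ
  have hcX : ∀ x ∈ X, B x c = 0 := fun x hx => hP c hcP x (Submodule.mem_sup_left hx)
  have hcY : ∀ y ∈ Y, B y c = 0 := fun y hy => hP c hcP y (Submodule.mem_sup_right hy)
  have hC : IsD B m (Z ⊔ Submodule.span k {c}) :=
    ⟨h.iso_sup (hX.1.mono hZX) fun x hx => hcX x (hZX hx), by
      rw [finrank_sup_span hcZ, hZ]⟩
  have hCX : ∀ U : Submodule k V, Iso B U → Z ≤ U → (∀ x ∈ U, B x c = 0) →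
      ∀ x ∈ U, ∀ y ∈ Z ⊔ Submodule.span k {c}, B x y = 0 := by
    intro U hU hZU hc x hx y hy
    obtain ⟨z, hz, s, hs, rfl⟩ := Submodule.mem_sup.1 hy
    obtain ⟨a, rfl⟩ := Submodule.mem_span_singleton.1 hs
    rw [map_add, map_smul, hc x hx, hU x hx z (hZU hz), smul_zero, add_zero]
  refine (ortho X _ hX hC hZX le_sup_left (hCX X hX.1 hZX hcX)).trans
    (ortho _ Y hC hY le_sup_left hZY fun x hx y hy => h.symm0 (hCX Y hY.1 hZY hcY y hy x hx))

/-- the totally isotropic subspaces of dimension `m`, `1 ≤ m < r`, are connected by steps inside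
totally isotropic subspaces of dimension `m + 1` -/
theorem Sp.con2 (h : Sp B) {r m : ℕ} (hr : finrank k V = 2 * r) (hm : 1 ≤ m) (hmr : m + 1 ≤ r)
    {X Y : Submodule k V} (hX : IsD B m X) (hY : IsD B m Y) :
    Relation.ReflTransGen (StepU B m) X Y := by
  have h1 := h.con hm hX hY
  clear hY
  induction h1 with
  | refl => exact Relation.ReflTransGen.refl
  | tail _ hs ih => exact ih.trans (h.stepU_of hr hmr hs)

/-- every totally isotropic subspace lies in one of dimension `r` -/
theorem Sp.max (h : Sp B) {r : ℕ} (hr : finrank k V = 2 * r) {X : Submodule k V} (hX : Iso B X) :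
    ∃ Z, X ≤ Z ∧ IsD B r Z := by
  classical
  let b := finBasis k X
  have hb : LinearIndependent k (fun i => (b i : V)) :=
    b.linearIndependent.map' X.subtype (Submodule.ker_subtype X)
  have hi : IsoF B (fun i => (b i : V)) := isoF_of hX fun i => (b i).2
  have hm := h.le hr hb hi
  obtain ⟨U, hU, hUi, hUe⟩ := h.ext hr (r - finrank k X) (finrank k X) (by omega) hb hi
  refine ⟨Submodule.span k (Set.range U), ?_, iso_span hUi, ?_⟩
  · intro x hx
    have h3 := exp_basis b hx
    rw [h3]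
    refine Submodule.sum_mem _ fun i _ => Submodule.smul_mem _ _ (Submodule.subset_span ?_)
    exact ⟨_, hUe i⟩
  · rw [finrank_span_eq_card hU, Fintype.card_fin]

/-- transitivity on the totally isotropic subspaces of dimension `m` -/
theorem Sp.tra (h : Sp B) {r m : ℕ} (hr : finrank k V = 2 * r) {X Y : Submodule k V}
    (hX : IsD B m X) (hY : IsD B m Y) :
    ∃ g : V ≃ₗ[k] V, (∀ x y, B (g x) (g y) = B x y) ∧ X.map (g : V →ₗ[k] V) = Y := by
  classical
  obtain ⟨hXi, hXd⟩ := hX
  obtain ⟨hYi, hYd⟩ := hY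
  let b := (finBasis k X).reindex (finCongr hXd)
  let b' := (finBasis k Y).reindex (finCongr hYd)
  have hb : LinearIndependent k (fun i => (b i : V)) :=
    b.linearIndependent.map' X.subtype (Submodule.ker_subtype X)
  have hb' : LinearIndependent k (fun i => (b' i : V)) :=
    b'.linearIndependent.map' Y.subtype (Submodule.ker_subtype Y)
  obtain ⟨g, hg, hgb⟩ := h.witt hr hb (isoF_of hXi fun i => (b i).2) hb'
    (isoF_of hYi fun i => (b' i).2)
  refine ⟨g, hg, ?_⟩
  refine Submodule.eq_of_le_of_finrank_eq ?_ ?_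
  · rintro _ ⟨x, hx, rfl⟩
    have h3 := exp_basis b hx
    rw [h3, map_sum]
    refine Submodule.sum_mem _ fun i _ => ?_
    rw [map_smul]
    refine Submodule.smul_mem _ _ ?_
    rw [LinearEquiv.coe_coe, hgb i]
    exact (b' i).2
  · rw [LinearEquiv.finrank_map_eq, hXd, hYd]

end Vale.Agent.P092.H308.SG
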