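import Vale.Agent.P092.H308.SG3
import Vale.Agent.P092.H618.RkDefs

/-!
P092, Team P, Stage 2 (helper308), row [P2-SG]: the source geometry `SGeo` of the totally isotropic
subspaces of a symplectic space (index reversed: `e` = `r + 1 - dimension`).
-/

set_option linter.all false

open Module

namespace Vale.Agent.P092.H308.SG

section

variable {k V : Type*} [Field k] [AddCommGroup V] [Module k V] [FiniteDimensional k V]
  {B : V →ₗ[k] V →ₗ[k] k}

/-- a family adapted to a pair of hyperplanes of a totally isotropic space -/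
theorem adapted {n : ℕ} {P Y X : Submodule k V} (hX : Iso B X) (hXd : finrank k X = n + 2)
    (hPX : P ≤ X) (hYX : Y ≤ X) (hP : finrank k P = n + 1) (hY : finrank k Y = n + 1)
    (hPY : P ≠ Y) :
    ∃ (y p : V) (d : Fin n → V),
      LinearIndependent k (Fin.cons y (Fin.cons p d : Fin (n + 1) → V) : Fin (n + 2) → V) ∧
      IsoF B (Fin.cons y (Fin.cons p d : Fin (n + 1) → V) : Fin (n + 2) → V) ∧
      P = Submodule.span k (insert p (Set.range d)) ∧
      Y = Submodule.span k (insert y (Set.range d)) := by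
  classical
  have hYP : ¬ Y ≤ P := fun hle => hPY (Submodule.eq_of_le_of_finrank_eq hle (by rw [hP, hY])).symm
  have hPY' : ¬ P ≤ Y := fun hle => hPY (Submodule.eq_of_le_of_finrank_eq hle (by rw [hP, hY]))
  obtain ⟨y, hyY, hyP⟩ := SetLike.not_le_iff_exists.1 hYP
  obtain ⟨p, hpP, hpY⟩ := SetLike.not_le_iff_exists.1 hPY'
  have h1 := Submodule.finrank_sup_add_finrank_inf_eq P Y
  have h2 : finrank k (P ⊔ Y : Submodule k V) ≤ n + 2 := by
    rw [← hXd]; exact Submodule.finrank_mono (sup_le hPX hYX)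
  have h3 : finrank k P + 1 ≤ finrank k (P ⊔ Y : Submodule k V) := by
    rw [← finrank_sup_span hyP]
    exact Submodule.finrank_mono (sup_le_sup_left
      (by rwa [Submodule.span_singleton_le_iff_mem]) _)
  have hD : finrank k (P ⊓ Y : Submodule k V) = n := by
    rw [hP, hY] at h1; rw [hP] at h3; omega
  let b := (finBasis k (P ⊓ Y : Submodule k V)).reindex (finCongr hD)
  have hb : LinearIndependent k (fun i => (b i : V)) :=
    b.linearIndependent.map' (P ⊓ Y).subtype (Submodule.ker_subtype _)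
  have hbs : Submodule.span k (Set.range fun i => (b i : V)) = P ⊓ Y := by
    refine Submodule.eq_of_le_of_finrank_eq ?_ ?_
    · rw [Submodule.span_le]; rintro _ ⟨i, rfl⟩; exact (b i).2
    · rw [finrank_span_eq_card hb, Fintype.card_fin, hD]
  have hPs : P = Submodule.span k (insert p (Set.range fun i => (b i : V))) := by
    rw [Submodule.span_insert, hbs, sup_comm]
    refine (Submodule.eq_of_le_of_finrank_eq (sup_le inf_le_left
      (by rwa [Submodule.span_singleton_le_iff_mem])) ?_).symm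
    rw [finrank_sup_span (X := P ⊓ Y) (y := p) fun hp => hpY hp.2, hD, hP]
  have hYs : Y = Submodule.span k (insert y (Set.range fun i => (b i : V))) := by
    rw [Submodule.span_insert, hbs, sup_comm]
    refine (Submodule.eq_of_le_of_finrank_eq (sup_le inf_le_right
      (by rwa [Submodule.span_singleton_le_iff_mem])) ?_).symm
    rw [finrank_sup_span (X := P ⊓ Y) (y := y) fun hp => hyP hp.1, hD, hY]
  refine ⟨y, p, fun i => (b i : V), ?_, ?_, hPs, hYs⟩
  · rw [linearIndependent_finCons, linearIndependent_finCons]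
    refine ⟨⟨hb, ?_⟩, ?_⟩
    · rw [hbs]; exact fun hp => hpY hp.2
    · rw [Fin.range_cons, ← hPs]; exact hyP
  · refine isoF_of hX fun i => ?_
    refine Fin.cases ?_ (fun i => ?_) i
    · exact hYX hyY
    · rw [Fin.cons_succ]
      refine Fin.cases ?_ (fun i => ?_) i
      · exact hPX hpP
      · rw [Fin.cons_succ]; exact hPX (b i).2.1

/-- transitivity on the pairs of different subspaces of codimension one of totally isotropic
subspaces -/
theorem Sp.tra2 (h : Sp B) {r n : ℕ} (hr : finrank k V = 2 * r) {P Y X P' Y' X' : Submodule k V}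
    (hX : IsD B (n + 2) X) (hPX : P ≤ X) (hYX : Y ≤ X) (hP : finrank k P = n + 1)
    (hY : finrank k Y = n + 1) (hPY : P ≠ Y)
    (hX' : IsD B (n + 2) X') (hPX' : P' ≤ X') (hYX' : Y' ≤ X') (hP' : finrank k P' = n + 1)
    (hY' : finrank k Y' = n + 1) (hPY' : P' ≠ Y') :
    ∃ g : V ≃ₗ[k] V, (∀ x y, B (g x) (g y) = B x y) ∧ P.map (g : V →ₗ[k] V) = P' ∧
      Y.map (g : V →ₗ[k] V) = Y' := by
  obtain ⟨y, p, d, hli, hiso, hPs, hYs⟩ := adapted hX.1 hX.2 hPX hYX hP hY hPY
  obtain ⟨y', p', d', hli', hiso', hPs', hYs'⟩ := adapted hX'.1 hX'.2 hPX' hYX' hP' hY' hPY'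
  obtain ⟨g, hg, hgu⟩ := h.witt hr hli hiso hli' hiso'
  have gy : g y = y' := by simpa using hgu 0
  have gp : g p = p' := by simpa using hgu (Fin.succ 0)
  have gd : ∀ i, g (d i) = d' i := fun i => by simpa using hgu (Fin.succ (Fin.succ i))
  have hd : (g : V →ₗ[k] V) '' Set.range d = Set.range d' := by
    ext x
    constructor
    · rintro ⟨_, ⟨i, rfl⟩, rfl⟩; exact ⟨i, (gd i).symm⟩
    · rintro ⟨i, rfl⟩; exact ⟨_, ⟨i, rfl⟩, gd i⟩
  refine ⟨g, hg, ?_, ?_⟩
  · rw [hPs, hPs', Submodule.map_span, Set.image_insert_eq, hd, LinearEquiv.coe_coe, gp]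
  · rw [hYs, hYs', Submodule.map_span, Set.image_insert_eq, hd, LinearEquiv.coe_coe, gy]

end

section

variable {k V : Type} [Field k] [AddCommGroup V] [Module k V] [FiniteDimensional k V]
  (B : V →ₗ[k] V →ₗ[k] k) (r : ℕ)

/-- totally isotropic subspaces of dimension `r + 1 - e` -/
def S (e : ℕ) : Type := {X : Submodule k V // Iso B X ∧ finrank k X + e = r + 1}

/-- `X ⊇ X'` -/
def R (i j : ℕ) (X : S B r i) (X' : S B r j) : Prop := X'.1 ≤ X.1

variable {B} {r}

/-- the data of a group acting on `V` by all isometries of `B` -/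
structure Act (B : V →ₗ[k] V →ₗ[k] k) (H : Type) [Group H] (ρ : H →* (V ≃ₗ[k] V)) : Prop where
  pres : ∀ g x y, B (ρ g x) (ρ g y) = B x y
  full : ∀ e : V ≃ₗ[k] V, (∀ x y, B (e x) (e y) = B x y) → ∃ g, ρ g = e

variable {H : Type} [Group H] {ρ : H →* (V ≃ₗ[k] V)}

theorem Act.iso (a : Act B H ρ) (g : H) {X : Submodule k V} (hX : Iso B X) :
    Iso B (X.map (ρ g : V →ₗ[k] V)) := by
  rintro _ ⟨x, hx, rfl⟩ _ ⟨y, hy, rfl⟩
  exact (a.pres g x y).trans (hX x hx y hy)

/-- the action of `H` on the totally isotropic subspaces -/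
@[reducible] def Act.act (a : Act B H ρ) (e : ℕ) : MulAction H (S B r e) where
  smul g X := ⟨X.1.map (ρ g : V →ₗ[k] V), a.iso g X.2.1, by
    rw [LinearEquiv.finrank_map_eq]; exact X.2.2⟩
  one_smul X := by
    apply Subtype.ext
    change X.1.map ((ρ 1 : V ≃ₗ[k] V) : V →ₗ[k] V) = X.1
    rw [map_one]
    exact Submodule.map_id X.1
  mul_smul g g' X := by
    apply Subtype.ext
    change X.1.map ((ρ (g * g') : V ≃ₗ[k] V) : V →ₗ[k] V) =
      (X.1.map ((ρ g' : V ≃ₗ[k] V) : V →ₗ[k] V)).map ((ρ g : V ≃ₗ[k] V) : V →ₗ[k] V)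
    rw [map_mul, ← Submodule.map_comp]
    rfl

theorem S.isD {e m : ℕ} (X : S B r e) (hm : m + e = r + 1) : IsD B m X.1 :=
  ⟨X.2.1, by have := X.2.2; omega⟩

/-- transfer of chains to the index set `S` -/
theorem chain {e m : ℕ} (hm : m + e = r + 1) {St : Submodule k V → Submodule k V → Prop}
    (hSt : ∀ X Y, St X Y → IsD B m X ∧ IsD B m Y) {Q : S B r e → S B r e → Prop}
    (hQ : ∀ X Y : S B r e, St X.1 Y.1 → Q X Y) {X Y : S B r e}
    (hc : Relation.ReflTransGen St X.1 Y.1) : Relation.ReflTransGen Q X Y := by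
  obtain ⟨X, hX⟩ := X
  obtain ⟨Y, hY⟩ := Y
  change Relation.ReflTransGen St X Y at hc
  revert hY
  induction hc with
  | refl => intro hY; exact Relation.ReflTransGen.refl
  | @tail b c _ hs ih =>
    intro hc
    have hb := (hSt _ _ hs).1
    exact (ih ⟨hb.1, by rw [hb.2]; exact hm⟩).tail (hQ ⟨b, _⟩ ⟨c, hc⟩ hs)

/-- **[P2-SG]**: the source geometry of a symplectic space of dimension `2 r` -/
theorem sgeo (h : Sp B) (hr : finrank k V = 2 * r) (a : Act B H ρ) :
    letI : ∀ j, MulAction H (S B r j) := a.act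
    H618.SGeo r (S B r) (R B r) H := by
  letI : ∀ j, MulAction H (S B r j) := a.act
  have sm : ∀ {j} (g : H) (X : S B r j), (g • X).1 = X.1.map (ρ g : V →ₗ[k] V) := fun g X => rfl
  refine ⟨?_, ?_, ?_, ?_, ?_, ?_, ?_, ?_, ?_⟩
  · intro i X X'
    constructor
    · intro hle
      refine Subtype.ext (Submodule.eq_of_le_of_finrank_eq hle ?_).symm
      have h1 := X.2.2
      have h2 := X'.2.2
      omega
    · rintro rfl; exact le_rfl
  · intro i j l X Y Z hXY hYZ
    exact le_trans (show Z.1 ≤ Y.1 from hYZ) (show Y.1 ≤ X.1 from hXY)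
  · intro j hj hjr X
    obtain ⟨Z, hZ, hZd⟩ := h.max hr X.2.1
    exact ⟨⟨Z, hZd.1, by rw [hZd.2]⟩, hZ⟩
  · intro j hj hjr X
    have hX := X.2.2
    obtain ⟨Z, hZ1, hZ2, hZ3⟩ := between 1 (D := ⊥) (E := X.1) (n := 1) bot_le
      (by rw [finrank_bot]) (by omega)
    exact ⟨⟨Z, X.2.1.mono hZ2, by omega⟩, hZ2⟩
  · intro g i j X X' hle
    exact Submodule.map_mono hle
  · intro j hj hjr X X'
    obtain ⟨m, hm⟩ : ∃ m, m + j = r + 1 := ⟨r + 1 - j, by omega⟩
    obtain ⟨e, he, hX⟩ := h.tra hr (X.isD hm) (X'.isD hm)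
    obtain ⟨g, hg⟩ := a.full e he
    refine ⟨g, Subtype.ext ?_⟩
    rw [sm, hg, hX]
  · intro j hj hjr X X'
    obtain ⟨m, hm⟩ : ∃ m, m + j = r + 1 := ⟨r + 1 - j, by omega⟩
    refine chain hm (St := StepD B m) (fun X Y hs => ⟨hs.1, hs.2.1⟩) ?_
      (h.con (by omega) (X.isD hm) (X'.isD hm))
    rintro X Y ⟨hX, hY, Z, hZX, hZY, hZ⟩
    exact ⟨⟨Z, hX.1.mono hZX, by omega⟩, hZX, hZY⟩
  · intro j hj hjr P P'
    obtain ⟨m, hm⟩ : ∃ m, m + (j + 1) = r + 1 := ⟨r - j, by omega⟩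
    refine chain hm (St := StepU B m) (fun X Y hs => ⟨hs.1, hs.2.1⟩) ?_
      (h.con2 hr (by omega) (by omega) (P.isD hm) (P'.isD hm))
    rintro X Y ⟨hX, hY, Z, hXZ, hYZ, hZ⟩
    exact ⟨⟨Z, hZ.1, by rw [hZ.2]; omega⟩, hXZ, hYZ⟩
  · intro j hj hjr P Y P' Y' hPY hPY' ⟨X, hXP, hXY⟩ ⟨X', hXP', hXY'⟩
    obtain ⟨n, hn⟩ : ∃ n, n + 2 + j = r + 1 := ⟨r - 1 - j, by omega⟩
    have fr : ∀ Q : S B r (j + 1), finrank k Q.1 = n + 1 := fun Q => by
      have := Q.2.2; omega
    obtain ⟨e, he, h1, h2⟩ := h.tra2 hr (n := n) (X.isD hn) hXP hXY (fr P) (fr Y)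
      (fun hc => hPY (Subtype.ext hc)) (X'.isD hn) hXP' hXY' (fr P') (fr Y')
      (fun hc => hPY' (Subtype.ext hc))
    obtain ⟨g, hg⟩ := a.full e he
    exact ⟨g, Subtype.ext (by rw [sm, hg, h1]), Subtype.ext (by rw [sm, hg, h2])⟩

end

end Vale.Agent.P092.H308.SG
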