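import Vale.Agent.P092.H370.Po3
import Vale.Agent.P092.H618.RkDefs

/-!
P092, Team P, Stage 2 (helper308), row [P2-SG]: `SGeo` in the letters of helper370, for the singular
Grassmannians `SGr σ J j` of any form `Frm σ ε J` which has a singular `r`-space; index reversed,
`S e = SGr σ J (r + 1 - e)`, `R i j X X'` = `X ⊇ X'`; any group acting through the isometry group
and onto the transvection group.
-/

set_option linter.all false

open Matrix Module Set

namespace Vale.Agent.P092.H308.SGF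

open Vale.Agent.P092.H303 (FormGroup)
open Vale.Agent.P092.H714.Cl
open Vale.Agent.P092.H370.Po

variable {n : Type} [Fintype n] [DecidableEq n] {k : Type} [Field k]
  {σ : k →+* k} {ε : k} {J : Matrix n n k}

/-- the singular spaces of the source, index reversed -/
abbrev S (σ : k →+* k) (J : Matrix n n k) (r e : ℕ) : Type := SGr σ J (r + 1 - e)

/-- `X ⊇ X'` -/
def R (σ : k →+* k) (J : Matrix n n k) (r i j : ℕ) (X : S σ J r i) (X' : S σ J r j) : Prop :=
  Inc X' X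

theorem con_down (hF : Frm σ ε J) {a b : ℕ} (h : a = b + 1) (P P' : SGr σ J a) :
    Relation.ReflTransGen (fun A B : SGr σ J a => ∃ Z : SGr σ J b, Inc Z A ∧ Inc Z B) P P' := by
  subst h; exact con2 hF P P'

theorem con_up (hF : Frm σ ε J) {a b : ℕ} (h : a = b + 1) (Y : SGr σ J a) (P P' : SGr σ J b) :
    Relation.ReflTransGen (fun A B : SGr σ J b => ∃ Z : SGr σ J a, Inc A Z ∧ Inc B Z) P P' := by
  subst h; exact con hF Y P P'

theorem common (hF : Frm σ ε J) {b : ℕ} {X : SGr σ J (b + 2)} {P Y : SGr σ J (b + 1)}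
    (hne : P ≠ Y) (h1 : Inc P X) (h2 : Inc Y X) : ∃ Z : SGr σ J b, Inc Z P ∧ Inc Z Y := by
  have hle : ¬ Y.S ≤ P.S := fun h => hne (SGr.eq_of_le h).symm
  have e1 := Submodule.finrank_sup_add_finrank_inf_eq P.S Y.S
  have e2 : finrank k ↥(P.S ⊔ Y.S) ≤ b + 2 :=
    (Submodule.finrank_mono (sup_le h1 h2)).trans_eq X.dim
  have e3 : finrank k ↥(P.S ⊓ Y.S) < b + 1 :=
    (Submodule.finrank_lt_finrank_of_lt (lt_of_le_of_ne inf_le_right
      fun h => hle (inf_eq_right.1 h))).trans_eq Y.dim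
  rw [P.dim, Y.dim] at e1
  exact ⟨SGr.mk' (P.S ⊓ Y.S) (P.sing.mono inf_le_left) (by omega), inf_le_left, inf_le_right⟩

theorem tra_pair (hF : Frm σ ε J) {a b : ℕ} (h : a = b + 1) (hb : 1 ≤ b) {P Y P' Y' : SGr σ J b}
    (hne : P ≠ Y) (hne' : P' ≠ Y') (hX : ∃ X : SGr σ J a, Inc P X ∧ Inc Y X)
    (hX' : ∃ X : SGr σ J a, Inc P' X ∧ Inc Y' X) :
    ∃ g : FormGroup σ J, g.1 ∈ GT σ ε J ∧ g • P = P' ∧ g • Y = Y' := by
  obtain ⟨b, rfl⟩ : ∃ c, b = c + 1 := ⟨b - 1, by omega⟩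
  subst h
  obtain ⟨X, h1, h2⟩ := hX
  obtain ⟨X', h3, h4⟩ := hX'
  exact trans_pair_col hF hne hne' (common hF hne h1 h2) (common hF hne' h3 h4)
    (fun x hx y hy => X.sing x (h1 hx) y (h2 hy)) (fun x hx y hy => X'.sing x (h3 hx) y (h4 hy))

/-- **[P2-SG]**, in the letters of helper370: any form with a singular `r`-space, any group which
acts through isometries and onto the transvection group. -/
theorem sgeoF (hF : Frm σ ε J) (r : ℕ) (Y₀ : SGr σ J r) {H : Type} [Group H]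
    [∀ j, MulAction H (SGr σ J j)]
    (hact : ∀ h : H, ∃ g : FormGroup σ J, ∀ j (X : SGr σ J j), h • X = g • X)
    (hfull : ∀ g : FormGroup σ J, g.1 ∈ GT σ ε J → ∃ h : H, ∀ j (X : SGr σ J j), h • X = g • X) :
    H618.SGeo r (S σ J r) (R σ J r) H := by
  refine ⟨?_, ?_, ?_, ?_, ?_, ?_, ?_, ?_, ?_⟩
  · intro i X X'
    exact inc_iff_eq.trans eq_comm
  · intro i j l X Y Z hXY hYZ
    exact Inc.trans (show Inc Z Y from hYZ) (show Inc Y X from hXY)
  · intro j hj hjr X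
    obtain ⟨Z, hZ⟩ := exists_inc_ge hF (i := r + 1 - j) (l := r) (j := r) (by omega) le_rfl X Y₀
    exact ⟨(show S σ J r 1 from Z), hZ⟩
  · intro j hj hjr X
    have h1 : r + 1 - r ≤ r + 1 - j := by omega
    obtain ⟨Z, hZ⟩ := exists_inc_le h1 X
    exact ⟨Z, hZ⟩
  · intro g i j X X' hle
    obtain ⟨g', hg'⟩ := hact g
    change Inc (g • X') (g • X)
    rw [hg', hg']
    exact (inc_smul g').2 hle
  · intro j hj hjr X X'
    obtain ⟨g, hg, h1, -⟩ := trans_SGr hF X X'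
    obtain ⟨g', hg'⟩ := hfull g hg
    exact ⟨g', by rw [hg']; exact h1⟩
  · intro j hj hjr X X'
    exact con_down hF (by omega) X X'
  · intro j hj hjr P P'
    have h1 : r + 1 - j ≤ r := by omega
    obtain ⟨Y, -⟩ := exists_inc_le h1 Y₀
    exact con_up hF (by omega) Y P P'
  · intro j hj hjr P Y P' Y' hPY hPY' hX hX'
    obtain ⟨g, hg, h1, h2⟩ := tra_pair hF (a := r + 1 - j) (b := r + 1 - (j + 1)) (by omega)
      (by omega) hPY hPY' hX hX'
    obtain ⟨g', hg'⟩ := hfull g hg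
    exact ⟨g', by rw [hg']; exact h1, by rw [hg']; exact h2⟩

/-- the same for a subgroup between `GT` and the isometry group -/
theorem sgeoG (hF : Frm σ ε J) (r : ℕ) (Y₀ : SGr σ J r) (G : Subgroup (FormGroup σ J))
    (hG : GTF hF ≤ G) : H618.SGeo r (S σ J r) (R σ J r) G :=
  sgeoF (H := G) hF r Y₀ (fun h => ⟨h.1, fun j X => rfl⟩)
    (fun g hg => ⟨⟨g, hG (by rw [GTF, Subgroup.mem_subgroupOf]; exact hg)⟩, fun j X => rfl⟩)

/-- the isometry group itself -/
theorem sgeoI (hF : Frm σ ε J) (r : ℕ) (Y₀ : SGr σ J r) :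
    H618.SGeo r (S σ J r) (R σ J r) (FormGroup σ J) :=
  sgeoF (H := FormGroup σ J) hF r Y₀ (fun h => ⟨h, fun j X => rfl⟩) (fun g hg => ⟨g, fun j X => rfl⟩)

end Vale.Agent.P092.H308.SGF
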